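import Vale.Agent.P101.StmtZ
import Vale.Agent.P095K.GStmt

/-!
Definitions for `G`-kernels and cocycle actions.
-/

open Filter Topology
open scoped MultiplierAlgebra TensorProduct

namespace Vale.Agent.P095.H413

universe u w

/-- The multiplier `y` of `B` is the image of the multiplier `x` of `A` under the extension of
the isomorphism `φ : A → B` to the multiplier algebras: `φ(x a) = y φ(a)` for all `a`. -/
def IsExt {A B : Type u} [NonUnitalCStarAlgebra A] [NonUnitalCStarAlgebra B] (φ : A ≃⋆ₐ[ℂ] B)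
    (x : 𝓜(ℂ, A)) (y : 𝓜(ℂ, B)) : Prop :=
  ∀ a, φ (x.fst a) = y.fst (φ a)

/-- The automorphisms `α_g` and the unitary multipliers `w(g,h)` form a `G`-kernel with
implementing unitaries: `α_g α_h = Ad w(g,h) ∘ α_{gh}`. Every action (with `w = 1`) and every
cocycle action of `G` is of this form. -/
structure IsKernel {A : Type u} [NonUnitalCStarAlgebra A] {G : Type w} [Group G]
    (α : G → (A ≃⋆ₐ[ℂ] A)) (w : G → G → 𝓜(ℂ, A)) : Prop where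
  unitary : ∀ g h, w g h ∈ unitary 𝓜(ℂ, A)
  mul : ∀ g h a, ((α g (α h a) : A) : 𝓜(ℂ, A)) =
    w g h * ((α (g * h) a : A) : 𝓜(ℂ, A)) * star (w g h)

/-- Strong cocycle conjugacy of `(α, w)` and `(β, w')`, by an isomorphism which is approximately
unitarily equivalent to the map `i`: there are a star-isomorphism `Φ : A → B` and unitary
multipliers `u_g`, `V_n` of `B` with `Φ(α_g(a)) = u_g β_g(Φ(a)) u_g^*`,
`Φ(w(g,h)) = u_g β_g(u_h) w'(g,h) u_{gh}^*` (where `v = β_g(u_h)`), `V_n i(a) V_n^* → Φ(a)` in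
norm, and `V_n β_g(V_n^*) → u_g` in norm. -/
structure IsStrongKernelConj {A B : Type u} [NonUnitalCStarAlgebra A] [NonUnitalCStarAlgebra B]
    {G : Type w} [Group G] (i : A → B) (α : G → (A ≃⋆ₐ[ℂ] A)) (w : G → G → 𝓜(ℂ, A))
    (β : G → (B ≃⋆ₐ[ℂ] B)) (w' : G → G → 𝓜(ℂ, B)) : Prop where
  conj : ∃ (Φ : A ≃⋆ₐ[ℂ] B) (u : G → 𝓜(ℂ, B)) (V : ℕ → 𝓜(ℂ, B)),
    (∀ g, u g ∈ unitary 𝓜(ℂ, B)) ∧
    (∀ g a, ((Φ (α g a) : B) : 𝓜(ℂ, B)) = u g * ((β g (Φ a) : B) : 𝓜(ℂ, B)) * star (u g)) ∧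
    (∀ g h, ∃ v, IsExt (β g) (u h) v ∧
      IsExt Φ (w g h) (u g * v * w' g h * star (u (g * h)))) ∧
    (∀ n, V n ∈ unitary 𝓜(ℂ, B)) ∧
    (∀ a, Tendsto (fun n => V n * ((i a : B) : 𝓜(ℂ, B)) * star (V n)) atTop
      (𝓝 ((Φ a : B) : 𝓜(ℂ, B)))) ∧
    ∀ g (ε : ℝ), 0 < ε → ∀ᶠ n in atTop, ∀ b,
      ‖(V n).fst (β g ((star (V n)).fst b)) - (u g).fst (β g b)‖ ≤ ε * ‖b‖

end Vale.Agent.P095.H413
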