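import Vale.Agent.P095.H413.Strong
import Vale.Agent.P095.H413.Defs
import Mathlib.GroupTheory.FreeGroup.Basic

/-!
# P095: `G`-kernels and cocycle actions

A `G`-kernel is studied through the genuine action of the countable group which is generated by
the automorphisms.
-/

set_option linter.all false

open Filter Topology
open scoped MultiplierAlgebra TensorProduct

namespace Vale.Agent.P095.H413

universe u w

open Vale.Agent.P101 Vale.Agent.P095 Vale.Agent.P095R Vale.Agent.P095.H586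

theorem countable_closure {G : Type*} [Group G] {s : Set G} (hs : s.Countable) :
    Countable (Subgroup.closure s) := by
  have _ := hs.to_subtype
  have _ : Countable (FreeGroup s) := by
    unfold FreeGroup
    infer_instance
  rw [FreeGroup.closure_eq_range]
  exact (Set.countable_range _).to_subtype

section conj

variable {A Z B : Type u} [NonUnitalCStarAlgebra A] [CStarAlgebra Z] [NonUnitalCStarAlgebra B]

theorem multAut_conj (f k : B ≃⋆ₐ[ℂ] B) (W : 𝓜(ℂ, B)) (hW : W ∈ unitary 𝓜(ℂ, B))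
    (h : ∀ b, ((f b : B) : 𝓜(ℂ, B)) = W * ((k b : B) : 𝓜(ℂ, B)) * star W) (X : 𝓜(ℂ, B)) :
    multAut f X = W * multAut k X * star W := by
  refine rExt_ext_fst fun b => ?_
  obtain ⟨c, rfl⟩ := f.surjective b
  refine coeM_injective ?_
  show (((multAut f X).fst (f c) : B) : 𝓜(ℂ, B)) =
    (((W * multAut k X * star W).fst (f c) : B) : 𝓜(ℂ, B))
  have e0 : (multAut f X).fst (f c) = f (X.fst c) := by
    rw [multAut_fst, StarAlgEquiv.symm_apply_apply]
  rw [e0, ← mult_mul_coe, h, h]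
  have e1 : multAut k X * ((k c : B) : 𝓜(ℂ, B)) = ((k (X.fst c) : B) : 𝓜(ℂ, B)) := by
    rw [← multAut_coe, ← map_mul, mult_mul_coe, multAut_coe]
  have e2 : star W * W = 1 := Unitary.star_mul_self_of_mem hW
  calc W * ((k (X.fst c) : B) : 𝓜(ℂ, B)) * star W
      = W * (multAut k X * ((k c : B) : 𝓜(ℂ, B))) * star W := by rw [e1]
    _ = W * multAut k X * (star W * W) * ((k c : B) : 𝓜(ℂ, B)) * star W := by
        rw [e2, mul_one]; simp only [mul_assoc]
    _ = W * multAut k X * star W * (W * ((k c : B) : 𝓜(ℂ, B)) * star W) := by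
        simp only [mul_assoc]

theorem conj_on_tensor (T : A →ₗ[ℂ] Z →ₗ[ℂ] B) (hT : IsTensorCompletionN T)
    (θ : 𝓜(ℂ, A) →⋆ₐ[ℂ] 𝓜(ℂ, B)) (hθ : ∀ x a z, (θ x).fst (T a z) = T (x.fst a) z)
    (f k : A ≃⋆ₐ[ℂ] A) (f' k' : B ≃⋆ₐ[ℂ] B) (hf : ∀ a z, f' (T a z) = T (f a) z)
    (hk : ∀ a z, k' (T a z) = T (k a) z) (w : 𝓜(ℂ, A))
    (h : ∀ a, ((f a : A) : 𝓜(ℂ, A)) = w * ((k a : A) : 𝓜(ℂ, A)) * star w) (b : B) :
    ((f' b : B) : 𝓜(ℂ, B)) = θ w * ((k' b : B) : 𝓜(ℂ, B)) * star (θ w) := by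
  obtain ⟨j, hj⟩ := exists_rightHom T hT
  have hcont : ∀ φ : B ≃⋆ₐ[ℂ] B, Continuous fun b : B => ((φ b : B) : 𝓜(ℂ, B)) := fun φ =>
    isometry_coeM.continuous.comp (AddMonoidHomClass.continuous_of_bound φ 1 fun x => by
      rw [one_mul]; exact (NonUnitalStarAlgHom.norm_apply_le φ x))
  have hcl : IsClosed {b : B | ((f' b : B) : 𝓜(ℂ, B)) =
      θ w * ((k' b : B) : 𝓜(ℂ, B)) * star (θ w)} :=
    isClosed_eq (hcont f') ((continuous_const.mul (hcont k')).mul continuous_const)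
  have hsub : Set.range (TensorProduct.lift T) ⊆ {b : B | ((f' b : B) : 𝓜(ℂ, B)) =
      θ w * ((k' b : B) : 𝓜(ℂ, B)) * star (θ w)} := by
    rintro _ ⟨t, rfl⟩
    show ((f' (TensorProduct.lift T t) : B) : 𝓜(ℂ, B)) =
      θ w * ((k' (TensorProduct.lift T t) : B) : 𝓜(ℂ, B)) * star (θ w)
    induction t using TensorProduct.induction_on with
    | zero =>
      rw [map_zero, map_zero, map_zero]
      have e : ((0 : B) : 𝓜(ℂ, B)) = 0 := map_zero (DoubleCentralizer.coeHom (𝕜 := ℂ) (A := B))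
      rw [e, mul_zero, zero_mul]
    | add s t hs ht =>
      rw [map_add, map_add, map_add]
      have e : ∀ x y : B, ((x + y : B) : 𝓜(ℂ, B)) = (x : 𝓜(ℂ, B)) + (y : 𝓜(ℂ, B)) :=
        map_add (DoubleCentralizer.coeHom (𝕜 := ℂ) (A := B))
      rw [e, e, hs, ht, mul_add, add_mul]
    | tmul a z =>
      rw [TensorProduct.lift.tmul, hf, hk, ← ext_coe T hT θ hθ j hj, ← ext_coe T hT θ hθ j hj, h,
        map_mul, map_mul, map_star]
      have hc : Commute (θ (star w)) (j z) := ext_comm T hT θ hθ j hj _ _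
      rw [map_star] at hc
      rw [mul_assoc (θ w * θ _), hc.eq]
      simp only [mul_assoc]
  exact closure_minimal hsub hcl (hT.dense b)

end conj

section kernel

variable {A Z B : Type u} [NonUnitalCStarAlgebra A] [CStarAlgebra Z] [NonUnitalCStarAlgebra B]
  {G : Type w} [Group G]

/-- The group generated by the pairs `(α_g, β_g)`. -/
def kGrp (α : G → (A ≃⋆ₐ[ℂ] A)) (β : G → (B ≃⋆ₐ[ℂ] B)) :
    Subgroup ((A ≃⋆ₐ[ℂ] A) × (B ≃⋆ₐ[ℂ] B)) :=
  Subgroup.closure (Set.range fun g => (α g, β g))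

/-- The action of this group on `A`. -/
def kActA (α : G → (A ≃⋆ₐ[ℂ] A)) (β : G → (B ≃⋆ₐ[ℂ] B)) : kGrp α β →* (A ≃⋆ₐ[ℂ] A) :=
  (MonoidHom.fst _ _).comp (kGrp α β).subtype

/-- The action of this group on `B`. -/
def kActB (α : G → (A ≃⋆ₐ[ℂ] A)) (β : G → (B ≃⋆ₐ[ℂ] B)) : kGrp α β →* (B ≃⋆ₐ[ℂ] B) :=
  (MonoidHom.snd _ _).comp (kGrp α β).subtype

/-- The generators. -/
def kGen (α : G → (A ≃⋆ₐ[ℂ] A)) (β : G → (B ≃⋆ₐ[ℂ] B)) (g : G) : kGrp α β :=
  ⟨(α g, β g), Subgroup.subset_closure ⟨g, rfl⟩⟩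

theorem kActA_gen (α : G → (A ≃⋆ₐ[ℂ] A)) (β : G → (B ≃⋆ₐ[ℂ] B)) (g : G) :
    kActA α β (kGen α β g) = α g := rfl

theorem kActB_gen (α : G → (A ≃⋆ₐ[ℂ] A)) (β : G → (B ≃⋆ₐ[ℂ] B)) (g : G) :
    kActB α β (kGen α β g) = β g := rfl

theorem countable_kGrp [Countable G] (α : G → (A ≃⋆ₐ[ℂ] A)) (β : G → (B ≃⋆ₐ[ℂ] B)) :
    Countable (kGrp α β) := countable_closure (Set.countable_range _)

theorem kAct_compat (T : A →ₗ[ℂ] Z →ₗ[ℂ] B) (α : G → (A ≃⋆ₐ[ℂ] A)) (β : G → (B ≃⋆ₐ[ℂ] B))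
    (hβ : ∀ g a z, β g (T a z) = T (α g a) z) (γ : kGrp α β) (a : A) (z : Z) :
    kActB α β γ (T a z) = T (kActA α β γ a) z := by
  obtain ⟨p, hp⟩ := γ
  show p.2 (T a z) = T (p.1 a) z
  revert a z
  refine Subgroup.closure_induction (p := fun p _ => ∀ a z, p.2 (T a z) = T (p.1 a) z)
    ?_ ?_ ?_ ?_ hp
  · rintro _ ⟨g, rfl⟩ a z
    exact hβ g a z
  · intro a z
    rfl
  · intro x y _ _ hx hy a z
    show x.2 (y.2 (T a z)) = T (x.1 (y.1 a)) z
    rw [hy, hx]
  · intro x _ hx a z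
    show x.2.symm (T a z) = T (x.1.symm a) z
    have h := hx (x.1.symm a) z
    rw [StarAlgEquiv.apply_symm_apply] at h
    rw [← h, StarAlgEquiv.symm_apply_apply]

theorem kernel_conj [TopologicalSpace.SeparableSpace A] [Countable G]
    (α : G → (A ≃⋆ₐ[ℂ] A)) (w : G → G → 𝓜(ℂ, A)) (hα : IsKernel α w)
    (T : A →ₗ[ℂ] Z →ₗ[ℂ] B) (β : G → (B ≃⋆ₐ[ℂ] B)) (hZ : IsJiangSuAlgebra Z)
    (hT : IsTensorCompletionN T) (hβ : ∀ g a z, β g (T a z) = T (α g a) z)
    (hN : NoCharLocalN (kActA α β)) :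
    ∃ w' : G → G → 𝓜(ℂ, B), (∀ g h a z, (w' g h).fst (T a z) = T ((w g h).fst a) z) ∧
      IsStrongKernelConj (fun a => T a 1) α w β w' := by
  have _ : Countable (kGrp α β) := countable_kGrp α β
  obtain ⟨Φ, u, V, θ, hθ, hθ1, hθβ, hu, hcoc, hΦ, hV, hlim, huV, hD⟩ :=
    strong_core (kActA α β) hN (Set.range fun p : G × G => w p.1 p.2) (Set.countable_range _) T
      (kActB α β) hZ hT (kAct_compat T α β hβ)
  refine ⟨fun g h => θ (w g h), fun g h a z => hθ _ a z, ⟨Φ, fun g => u (kGen α β g), V,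
    fun g => hu _, fun g a => hΦ (kGen α β g) a, fun g h => ?_, hV, hlim, fun g ε hε => ?_⟩⟩
  · refine ⟨multAut (β g) (u (kGen α β h)), fun b => ?_, fun a => ?_⟩
    · rw [multAut_fst, StarAlgEquiv.symm_apply_apply]
    obtain ⟨y, hy, hya⟩ := hD (w g h) ⟨(g, h), rfl⟩
    rw [← hya]
    have hW : θ (w g h) ∈ unitary 𝓜(ℂ, B) := by
      have := hα.unitary g h
      rw [Unitary.mem_iff] at this ⊢
      rw [← map_star, ← map_mul, ← map_mul, this.1, this.2, map_one]
      exact ⟨rfl, rfl⟩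
    have hm : ∀ X : 𝓜(ℂ, B), multAut (kActB α β (kGen α β g * kGen α β h)) X =
        θ (w g h) * multAut (kActB α β (kGen α β (g * h))) X * star (θ (w g h)) :=
      multAut_conj _ _ _ hW fun b => conj_on_tensor T hT θ hθ
        (kActA α β (kGen α β g * kGen α β h)) (kActA α β (kGen α β (g * h))) _ _
        (kAct_compat T α β hβ _) (kAct_compat T α β hβ _) (w g h) (fun a => hα.mul g h a) b
    have h1 : Tendsto (fun n => V n * star (multAut (kActB α β (kGen α β g * kGen α β h)) (V n)) *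
        θ (w g h)) atTop (𝓝 (u (kGen α β g * kGen α β h) * θ (w g h))) :=
      (huV (kGen α β g * kGen α β h)).mul_const _
    have h2 := hy.mul (huV (kGen α β (g * h)))
    have h3 : ∀ n, V n * θ (w g h) * star (V n) *
        (V n * star (multAut (kActB α β (kGen α β (g * h))) (V n))) =
        V n * star (multAut (kActB α β (kGen α β g * kGen α β h)) (V n)) * θ (w g h) := by
      intro n
      have e1 : star (V n) * V n = 1 := Unitary.star_mul_self_of_mem (hV n)
      have e2 : star (θ (w g h)) * θ (w g h) = 1 := Unitary.star_mul_self_of_mem hW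
      rw [hm, star_mul, star_mul, star_star]
      calc _ = V n * θ (w g h) * (star (V n) * V n) *
            star (multAut (kActB α β (kGen α β (g * h))) (V n)) := by simp only [mul_assoc]
        _ = V n * (θ (w g h) * star (multAut (kActB α β (kGen α β (g * h))) (V n))) *
            (star (θ (w g h)) * θ (w g h)) := by rw [e1, e2, mul_one, mul_one, mul_assoc]
        _ = _ := by simp only [mul_assoc]
    have h4 : y * u (kGen α β (g * h)) = u (kGen α β g * kGen α β h) * θ (w g h) :=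
      tendsto_nhds_unique (h2.congr h3) h1
    have h5 : y = u (kGen α β g) * multAut (β g) (u (kGen α β h)) * θ (w g h) *
        star (u (kGen α β (g * h))) := by
      have e3 : u (kGen α β (g * h)) * star (u (kGen α β (g * h))) = 1 :=
        Unitary.mul_star_self_of_mem (hu _)
      calc y = y * u (kGen α β (g * h)) * star (u (kGen α β (g * h))) := by
            rw [mul_assoc, e3, mul_one]
        _ = _ := by rw [h4, hcoc]; rfl
    rw [h5]
  · filter_upwards [(Metric.tendsto_nhds.1 (huV (kGen α β g))) ε hε] with n hn b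
    rw [dist_eq_norm] at hn
    have e : (V n).fst (β g ((star (V n)).fst b)) - (u (kGen α β g)).fst (β g b) =
        (V n * star (multAut (kActB α β (kGen α β g)) (V n)) - u (kGen α β g)).fst (β g b) := by
      rw [DoubleCentralizer.sub_fst, DoubleCentralizer.mul_fst, ← map_star]
      show _ = (V n).fst ((multAut (β g) (star (V n))).fst (β g b)) - _
      rw [multAut_fst, StarAlgEquiv.symm_apply_apply]
      rfl
    rw [e]
    refine ((V n * star (multAut (kActB α β (kGen α β g)) (V n)) -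
      u (kGen α β g)).fst.le_opNorm _).trans ?_
    rw [DoubleCentralizer.norm_fst]
    have h2 : ‖β g b‖ = ‖b‖ := NonUnitalStarAlgHom.norm_map (β g) (β g).injective b
    rw [h2]
    exact mul_le_mul_of_nonneg_right hn.le (norm_nonneg _)

end kernel

end Vale.Agent.P095.H413
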