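import Vale.Agent.P095.Defs
import Vale.Agent.P095.MathlibUsed

/-!
# P095: quotients of amenable groups are amenable (Folner condition, by the layer cake argument)
-/

set_option linter.all false

namespace Vale.Agent.P095.H413

universe v w

open Vale.Agent.P095

open Classical in
theorem isAmenable_of_surjective {G : Type w} {Q : Type v} [Group G] [Group Q] (f : G →* Q)
    (hf : Function.Surjective f) (hG : IsAmenable G) : IsAmenable Q := by
  intro S ε hε
  obtain ⟨σ, hσ⟩ := hf.hasRightInverse
  set δ : ℝ := ε / (S.card + 1) with hδ
  have hδ0 : 0 < δ := by positivity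
  obtain ⟨K, hK, hKS⟩ := hG (S.image σ) δ hδ0
  have hK0 : (0 : ℝ) < K.card := by exact_mod_cast hK.card_pos
  let m : Q → ℕ := fun q => (K.filter fun k => f k = q).card
  let T : Finset Q := K.image f
  let n : ℕ := K.card
  let L : ℕ → Finset Q := fun t => T.filter fun q => t < m q
  have hmn : ∀ q, m q ≤ n := fun q => Finset.card_filter_le _ _
  have hmT : ∀ q, 0 < m q → q ∈ T := by
    intro q hq
    obtain ⟨k, hk⟩ := Finset.card_pos.1 hq
    rw [Finset.mem_filter] at hk
    exact Finset.mem_image.2 ⟨k, hk.1, hk.2⟩
  have hL : ∀ t q, q ∈ L t ↔ t < m q := by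
    intro t q
    simp only [L, Finset.mem_filter]
    exact ⟨fun h => h.2, fun h => ⟨hmT q (by omega), h⟩⟩
  -- the total mass
  have hmass : ∑ t ∈ Finset.range n, ((L t).card : ℝ) = K.card := by
    have h1 : ∀ t, (L t).card = ∑ q ∈ T, if t < m q then 1 else 0 := fun t => by
      rw [Finset.card_filter]
    have h2 : ∑ t ∈ Finset.range n, (L t).card = K.card := by
      simp only [h1]
      rw [Finset.sum_comm]
      have h3 : ∀ q ∈ T, ∑ t ∈ Finset.range n, (if t < m q then 1 else 0) = m q := by
        intro q _
        rw [← Finset.sum_filter, Finset.sum_const, smul_eq_mul, mul_one]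
        have : (Finset.range n).filter (fun t => t < m q) = Finset.range (m q) := by
          ext t
          simp only [Finset.mem_filter, Finset.mem_range]
          have := hmn q
          omega
        rw [this, Finset.card_range]
      rw [Finset.sum_congr rfl h3]
      exact (Finset.card_eq_sum_card_image f K).symm
    exact_mod_cast h2
  -- the boundary
  have hbd : ∀ s ∈ S, ∑ t ∈ Finset.range n, (((L t).filter fun q => s * q ∉ L t).card : ℝ) ≤
      δ * K.card := by
    intro s hs
    refine le_trans ?_ (hKS (σ s) (Finset.mem_image_of_mem σ hs))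
    have h1 : ∀ t, ((L t).filter fun q => s * q ∉ L t).card =
        ∑ q ∈ T, if t < m q ∧ ¬ t < m (s * q) then 1 else 0 := by
      intro t
      rw [← Finset.card_filter]
      congr 1
      ext q
      simp only [Finset.mem_filter, hL]
      constructor
      · rintro ⟨h1, h2⟩
        exact ⟨hmT q (by omega), h1, h2⟩
      · rintro ⟨-, h1, h2⟩
        exact ⟨h1, h2⟩
    have h2 : ∑ t ∈ Finset.range n, ((L t).filter fun q => s * q ∉ L t).card ≤
        (K.filter fun g => σ s * g ∉ K).card := by
      simp only [h1]
      rw [Finset.sum_comm]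
      have h3 : ∀ q ∈ T, ∑ t ∈ Finset.range n, (if t < m q ∧ ¬ t < m (s * q) then 1 else 0) ≤
          ((K.filter fun g => σ s * g ∉ K).filter fun g => f g = q).card := by
        intro q _
        rw [← Finset.sum_filter, Finset.sum_const, smul_eq_mul, mul_one]
        have h4 : (Finset.range n).filter (fun t => t < m q ∧ ¬ t < m (s * q)) ⊆
            Finset.Ico (m (s * q)) (m q) := by
          intro t
          simp only [Finset.mem_filter, Finset.mem_range, Finset.mem_Ico]
          omega
        refine (Finset.card_le_card h4).trans ?_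
        rw [Nat.card_Ico]
        have h5 : m q ≤ m (s * q) +
            ((K.filter fun g => σ s * g ∉ K).filter fun g => f g = q).card := by
          have h6 : (K.filter fun k => f k = q) ⊆
              (((K.filter fun k => f k = s * q).image fun k => (σ s)⁻¹ * k) ∪
                ((K.filter fun g => σ s * g ∉ K).filter fun g => f g = q)) := by
            intro k hk
            rw [Finset.mem_filter] at hk
            rw [Finset.mem_union]
            by_cases h : σ s * k ∈ K
            · left
              refine Finset.mem_image.2 ⟨σ s * k, Finset.mem_filter.2 ⟨h, ?_⟩, ?_⟩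
              · rw [map_mul, hσ s, hk.2]
              · rw [inv_mul_cancel_left]
            · right
              exact Finset.mem_filter.2 ⟨Finset.mem_filter.2 ⟨hk.1, h⟩, hk.2⟩
          refine (Finset.card_le_card h6).trans ((Finset.card_union_le _ _).trans ?_)
          exact Nat.add_le_add_right Finset.card_image_le _
        omega
      refine (Finset.sum_le_sum h3).trans ?_
      rw [← Finset.card_eq_sum_card_fiberwise (f := f) (t := T)]
      intro g hg
      have : g ∈ K := (Finset.mem_filter.1 hg).1
      exact Finset.mem_image_of_mem f this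
    exact_mod_cast h2
  -- choose a level
  have hsum : ∑ t ∈ Finset.range n, ∑ s ∈ S, (((L t).filter fun q => s * q ∉ L t).card : ℝ) <
      ∑ t ∈ Finset.range n, ε * ((L t).card : ℝ) := by
    rw [Finset.sum_comm, ← Finset.mul_sum, hmass]
    calc ∑ s ∈ S, ∑ t ∈ Finset.range n, (((L t).filter fun q => s * q ∉ L t).card : ℝ)
        ≤ ∑ _s ∈ S, δ * K.card := Finset.sum_le_sum hbd
      _ = S.card * δ * K.card := by rw [Finset.sum_const, nsmul_eq_mul]; ring
      _ < ε * K.card := by
          refine mul_lt_mul_of_pos_right ?_ hK0
          rw [hδ, mul_div_assoc', div_lt_iff₀ (by positivity)]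
          nlinarith
  obtain ⟨t, -, ht⟩ := Finset.exists_lt_of_sum_lt hsum
  have h0 : ∀ s, (0 : ℝ) ≤ (((L t).filter fun q => s * q ∉ L t).card : ℝ) :=
    fun s => Nat.cast_nonneg _
  refine ⟨L t, ?_, fun s hs => ?_⟩
  · by_contra hne
    rw [Finset.not_nonempty_iff_eq_empty] at hne
    have h1 : (0 : ℝ) ≤ ∑ s ∈ S, (((L t).filter fun q => s * q ∉ L t).card : ℝ) :=
      Finset.sum_nonneg fun s _ => h0 s
    rw [hne, Finset.card_empty, Nat.cast_zero, mul_zero] at ht
    rw [hne] at h1
    exact absurd ht (not_lt.2 h1)
  · exact (Finset.single_le_sum (f := fun s =>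
      (((L t).filter fun q => s * q ∉ L t).card : ℝ)) (fun s _ => h0 s) hs).trans ht.le

end Vale.Agent.P095.H413
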