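import Vale.Agent.P095.H413.Kernel
import Vale.Agent.P095.H413.Quot
import Vale.Agent.P095.H681.Local

/-!
# P095: strong equivariant `𝒵`-stability of `G`-kernels and cocycle actions
-/

set_option linter.all false

open Filter Topology
open scoped MultiplierAlgebra TensorProduct

namespace Vale.Agent.P095.H413

universe u w

open Vale.Agent.P101 Vale.Agent.P095 Vale.Agent.P095R Vale.Agent.P095K Vale.Agent.P095.H586
open Vale.Agent.P095H

section ct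

variable {A : Type u} [NonUnitalCStarAlgebra A]

theorem norm_aut (φ : A ≃⋆ₐ[ℂ] A) (x : A) : ‖φ x‖ = ‖x‖ :=
  NonUnitalStarAlgHom.norm_map φ φ.injective x

theorem aut_comm (φ : A ≃⋆ₐ[ℂ] A) (x a : A) :
    ‖φ x * a - a * φ x‖ = ‖x * φ.symm a - φ.symm a * x‖ := by
  rw [← norm_aut φ (x * φ.symm a - φ.symm a * x)]
  rw [map_sub, map_mul, map_mul, StarAlgEquiv.apply_symm_apply]

theorem ct_one : IsCentrallyTrivial (1 : A ≃⋆ₐ[ℂ] A) := by
  intro T ε hε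
  refine ⟨∅, 1, one_pos, fun x _ _ b _ => ?_⟩
  show ‖(x - x) * b‖ ≤ ε
  rw [sub_self, zero_mul, norm_zero]
  exact hε.le

open Classical in
theorem ct_mul {σ τ : A ≃⋆ₐ[ℂ] A} (hσ : IsCentrallyTrivial σ) (hτ : IsCentrallyTrivial τ) :
    IsCentrallyTrivial (σ * τ) := by
  intro T ε hε
  obtain ⟨F₁, δ₁, hδ₁, h₁⟩ := hσ T (ε / 2) (by positivity)
  obtain ⟨F₂, δ₂, hδ₂, h₂⟩ := hτ T (ε / 2) (by positivity)
  refine ⟨F₁.image τ.symm ∪ F₂, min δ₁ δ₂, lt_min hδ₁ hδ₂, fun x hx hc b hb => ?_⟩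
  have e : ((σ * τ) x - x) * b = (σ (τ x) - τ x) * b + (τ x - x) * b := by
    show (σ (τ x) - x) * b = _
    noncomm_ring
  rw [e]
  have n1 := h₁ (τ x) (by rw [norm_aut]; exact hx) (fun a ha => by
    rw [aut_comm]
    exact (hc _ (Finset.mem_union_left _ (Finset.mem_image_of_mem _ ha))).trans
      (min_le_left _ _)) b hb
  have n2 := h₂ x hx (fun a ha => (hc _ (Finset.mem_union_right _ ha)).trans
    (min_le_right _ _)) b hb
  refine (norm_add_le _ _).trans ?_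
  linarith

open Classical in
theorem ct_inv {σ : A ≃⋆ₐ[ℂ] A} (hσ : IsCentrallyTrivial σ) : IsCentrallyTrivial σ⁻¹ := by
  intro T ε hε
  obtain ⟨F, δ, hδ, h⟩ := hσ (T.image σ) ε hε
  refine ⟨F, δ, hδ, fun x hx hc b hb => ?_⟩
  have h1 := h x hx hc (σ b) (Finset.mem_image_of_mem _ hb)
  have e : (σ⁻¹ x - x) * b = - σ.symm ((σ x - x) * σ b) := by
    show (σ.symm x - x) * b = _
    rw [map_mul, map_sub, StarAlgEquiv.symm_apply_apply, StarAlgEquiv.symm_apply_apply]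
    noncomm_ring
  rw [e, norm_neg, norm_aut]
  exact h1

open Classical in
theorem ct_conj {σ : A ≃⋆ₐ[ℂ] A} (hσ : IsCentrallyTrivial σ) (γ : A ≃⋆ₐ[ℂ] A) :
    IsCentrallyTrivial (γ * σ * γ⁻¹) := by
  intro T ε hε
  obtain ⟨F, δ, hδ, h⟩ := hσ (T.image γ.symm) ε hε
  refine ⟨F.image γ, δ, hδ, fun x hx hc b hb => ?_⟩
  have h1 := h (γ.symm x) (by rw [norm_aut]; exact hx) (fun a ha => by
    rw [aut_comm]
    exact hc _ (Finset.mem_image_of_mem _ ha)) (γ.symm b) (Finset.mem_image_of_mem _ hb)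
  have e : ((γ * σ * γ⁻¹) x - x) * b = γ ((σ (γ.symm x) - γ.symm x) * γ.symm b) := by
    show (γ (σ (γ.symm x)) - x) * b = _
    rw [map_mul, map_sub, StarAlgEquiv.apply_symm_apply, StarAlgEquiv.apply_symm_apply]
  rw [e, norm_aut]
  exact h1

end ct

section main

variable {A Z B : Type u} [NonUnitalCStarAlgebra A] [CStarAlgebra Z] [NonUnitalCStarAlgebra B]
  {G : Type w} [Group G]

/-- The centrally trivial elements. -/
def kTriv (α : G → (A ≃⋆ₐ[ℂ] A)) (β : G → (B ≃⋆ₐ[ℂ] B)) : Subgroup (kGrp α β) where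
  carrier := {γ | IsCentrallyTrivial (kActA α β γ)}
  mul_mem' := by
    intro x y hx hy
    show IsCentrallyTrivial (kActA α β (x * y))
    rw [map_mul]
    exact ct_mul hx hy
  one_mem' := by
    show IsCentrallyTrivial (kActA α β 1)
    rw [map_one]
    exact ct_one
  inv_mem' := by
    intro x hx
    show IsCentrallyTrivial (kActA α β x⁻¹)
    rw [map_inv]
    exact ct_inv hx

instance (α : G → (A ≃⋆ₐ[ℂ] A)) (β : G → (B ≃⋆ₐ[ℂ] B)) : (kTriv α β).Normal :=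
  ⟨fun x hx γ => by
    show IsCentrallyTrivial (kActA α β (γ * x * γ⁻¹))
    rw [map_mul, map_mul, map_inv]
    exact ct_conj hx _⟩

theorem kTriv_of {α : G → (A ≃⋆ₐ[ℂ] A)} {β : G → (B ≃⋆ₐ[ℂ] B)} {γ : kGrp α β}
    (h : IsInner (kActA α β γ) ∨ IsCentrallyTrivial (kActA α β γ)) : γ ∈ kTriv α β := by
  rcases h with h | h
  · exact h.isCentrallyTrivial
  · exact h

/-- The homomorphism of `G` to the outer group. -/
def kHom {α : G → (A ≃⋆ₐ[ℂ] A)} {w : G → G → 𝓜(ℂ, A)} (hα : IsKernel α w)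
    (β : G → (B ≃⋆ₐ[ℂ] B)) : G →* kGrp α β ⧸ kTriv α β :=
  MonoidHom.mk' (fun g => (kGen α β g : kGrp α β ⧸ kTriv α β)) (by
    intro g h
    rw [← QuotientGroup.mk_mul]
    symm
    rw [← mul_inv_eq_one, ← QuotientGroup.mk_inv, ← QuotientGroup.mk_mul,
      QuotientGroup.eq_one_iff]
    refine kTriv_of (Or.inl ⟨w g h, hα.unitary g h, fun a => ?_⟩)
    have h1 := hα.mul g h ((α (g * h)).symm a)
    rw [StarAlgEquiv.apply_symm_apply] at h1
    rw [← h1, map_mul, map_mul, map_inv]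
    rfl)

theorem kHom_surjective {α : G → (A ≃⋆ₐ[ℂ] A)} {w : G → G → 𝓜(ℂ, A)} (hα : IsKernel α w)
    (β : G → (B ≃⋆ₐ[ℂ] B)) : Function.Surjective (kHom hα β) := by
  intro q
  obtain ⟨γ, rfl⟩ := QuotientGroup.mk_surjective q
  obtain ⟨p, hp⟩ := γ
  show ((⟨p, hp⟩ : kGrp α β) : kGrp α β ⧸ kTriv α β) ∈ Set.range (kHom hα β)
  refine Subgroup.closure_induction (p := fun p hp =>
    ((⟨p, hp⟩ : kGrp α β) : kGrp α β ⧸ kTriv α β) ∈ Set.range (kHom hα β)) ?_ ?_ ?_ ?_ hp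
  · rintro _ ⟨g, rfl⟩
    exact ⟨g, rfl⟩
  · exact ⟨1, map_one _⟩
  · rintro x y hx hy ⟨g, hg⟩ ⟨h, hh⟩
    refine ⟨g * h, ?_⟩
    rw [map_mul, hg, hh]
    rfl
  · rintro x hx ⟨g, hg⟩
    refine ⟨g⁻¹, ?_⟩
    rw [map_inv, hg]
    rfl

theorem isAmenable_kQuot {α : G → (A ≃⋆ₐ[ℂ] A)} {w : G → G → 𝓜(ℂ, A)} (hα : IsKernel α w)
    (β : G → (B ≃⋆ₐ[ℂ] B)) (N : Subgroup G) [N.Normal] (hQ : IsAmenable (G ⧸ N))
    (hN : ∀ n ∈ N, IsInner (α n) ∨ IsCentrallyTrivial (α n)) :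
    IsAmenable (kGrp α β ⧸ kTriv α β) := by
  have hle : ∀ n ∈ N, kHom hα β n = 1 := fun n hn =>
    (QuotientGroup.eq_one_iff _).2 (kTriv_of (hN n hn))
  refine isAmenable_of_surjective (QuotientGroup.lift N (kHom hα β) hle) ?_ hQ
  intro q
  obtain ⟨g, rfl⟩ := kHom_surjective hα β q
  exact ⟨(g : G ⧸ N), rfl⟩

/-- Strong equivariant `𝒵`-stability of `G`-kernels. -/
theorem kernel_main [TopologicalSpace.SeparableSpace A] (hS : IsSimpleAlg A)
    (hA : IsNuclearAlg A) (hZ : IsJiangSuAlgebra Z) (hZ' : IsStronglySelfAbsorbing Z)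
    (T : A →ₗ[ℂ] Z →ₗ[ℂ] B) (hB : IsTensorProd T) (hAB : Nonempty (A ≃⋆ₐ[ℂ] B))
    [Countable G] (N : Subgroup G) [N.Normal] (hQ : IsAmenable (G ⧸ N))
    (α : G → (A ≃⋆ₐ[ℂ] A)) (w : G → G → 𝓜(ℂ, A)) (hα : IsKernel α w)
    (hN : ∀ n ∈ N, IsInner (α n) ∨ IsCentrallyTrivial (α n))
    (β : G → (B ≃⋆ₐ[ℂ] B)) (hβ : ∀ g a z, β g (T a z) = T (α g a) z) :
    ∃ w' : G → G → 𝓜(ℂ, B), (∀ g h a z, (w' g h).fst (T a z) = T ((w g h).fst a) z) ∧
      IsStrongKernelConj (fun a => T a 1) α w β w' := by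
  have _ : Countable (kGrp α β) := countable_kGrp α β
  exact kernel_conj α w hα T β hZ hB.isTensorCompletionN hβ
    (noCharLocalN_main hS hA hZ hZ' T hB hAB (kTriv α β) (isAmenable_kQuot hα β N hQ hN)
      (kActA α β) fun n hn => Or.inr hn)

end main

end Vale.Agent.P095.H413
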