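import Vale.Agent.P095.Bdl.B16
import Vale.Agent.P095.H586.Defs

/-!
# P095: the strong form of the last step

The approximate intertwining gives unitary multipliers `V n` with `V n (a ⊗ 1) (V n)^* → Φ a` and
`V n β_g(V n)^* → u_g` in norm.
-/

set_option linter.all false

open Filter Topology

namespace Vale.Agent.P095.H413

universe u w

open Vale.Agent.P101 Vale.Agent.P095 Vale.Agent.P095.ZS Vale.Agent.P095R Vale.Agent.P095.H586

theorem elliott_strong {A B : Type u} [CStarAlgebra A] [CStarAlgebra B]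
    [TopologicalSpace.SeparableSpace A] [TopologicalSpace.SeparableSpace B]
    {G : Type w} [Group G] [Countable G] (α : G →* (A ≃⋆ₐ[ℂ] A)) (β : G →* (B ≃⋆ₐ[ℂ] B))
    (i : A →⋆ₐ[ℂ] B) (hi : Function.Injective i) (hαβ : ∀ g a, i (α g a) = β g (i a))
    (h : ∀ (S : Finset A) (T : Finset B) (K : Finset G) (ε : ℝ), 0 < ε → ∃ v ∈ unitary B,
      (∀ a ∈ S, ‖v * i a - i a * v‖ < ε) ∧ (∀ b ∈ T, ∃ a, ‖star v * b * v - i a‖ < ε) ∧
      ∀ g ∈ K, ‖β g v - v‖ < ε) :
    ∃ (Φ : A ≃⋆ₐ[ℂ] B) (u : G → B) (V : ℕ → B), (∀ n, V n ∈ unitary B) ∧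
      (∀ g, u g ∈ unitary B) ∧ (∀ g h, u (g * h) = u g * β g (u h)) ∧
      (∀ g a, Φ (α g a) = u g * β g (Φ a) * star (u g)) ∧
      (∀ a, Tendsto (fun n => V n * i a * star (V n)) atTop (𝓝 (Φ a))) ∧
      ∀ g, Tendsto (fun n => V n * star (β g (V n))) atTop (𝓝 (u g)) := by
  classical
  obtain ⟨eG, heG⟩ := exists_surjective_nat G
  have h' : ∀ (S : Finset A) (T : Finset B) (n : ℕ), ∃ (v : unitary B) (κ : B → A),
      (∀ a ∈ S, ‖(v : B) * i a - i a * v‖ < (1 / 2 : ℝ) ^ n) ∧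
      (∀ b ∈ T, ‖star (v : B) * b * v - i (κ b)‖ < (1 / 2 : ℝ) ^ n) ∧
      ∀ j ≤ n, ‖β (eG j) (v : B) - v‖ < (1 / 2 : ℝ) ^ n := by
    intro S T n
    obtain ⟨v, hv, h1, h2, h4⟩ := h S T ((Finset.range (n + 1)).image eG) ((1 / 2 : ℝ) ^ n)
      (by positivity)
    have h3 : ∀ b : B, ∃ a : A, b ∈ T → ‖star v * b * v - i a‖ < (1 / 2 : ℝ) ^ n := by
      intro b
      by_cases hb : b ∈ T
      · obtain ⟨a, ha⟩ := h2 b hb
        exact ⟨a, fun _ => ha⟩
      · exact ⟨0, fun h => absurd h hb⟩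
    choose κ hκ using h3
    exact ⟨⟨v, hv⟩, κ, h1, hκ, fun j hj => h4 _ (Finset.mem_image.2 ⟨j, by simp; omega, rfl⟩)⟩
  choose V κ hV hκ hβV using h'
  obtain ⟨a, ha⟩ := TopologicalSpace.exists_dense_seq A
  obtain ⟨b, hb⟩ := TopologicalSpace.exists_dense_seq B
  let G1 : ℕ → unitary B × Finset A → Finset A :=
    fun n p => p.2 ∪ (Finset.range (n + 1)).image a
  let G2 : ℕ → unitary B × Finset A → Finset B :=
    fun n p => (Finset.range (n + 1)).image (fun j => star (p.1 : B) * b j * p.1)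
  let F : ℕ → unitary B × Finset A := fun n => Nat.rec (1, ∅)
    (fun n p => (p.1 * V (G1 n p) (G2 n p) n,
      G1 n p ∪ (G2 n p).image (κ (G1 n p) (G2 n p) n))) n
  let U : ℕ → unitary B := fun n => (F n).1
  let W : ℕ → Finset A := fun n => G1 n (F n)
  let v : ℕ → unitary B := fun n => V (W n) (G2 n (F n)) n
  have hU : ∀ n, U (n + 1) = U n * v n := fun n => rfl
  have hW : ∀ n, W n ⊆ W (n + 1) := by
    intro n x hx
    exact Finset.mem_union_left _ (Finset.mem_union_left _ hx)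
  have hWm : ∀ m k, m ≤ k → W m ⊆ W k := by
    intro m k hmk
    induction hmk with
    | refl => exact Finset.Subset.refl _
    | step _ ih => exact ih.trans (hW _)
  have haW : ∀ j n, j ≤ n → a j ∈ W n := by
    intro j n hj
    exact Finset.mem_union_right _ (Finset.mem_image.2 ⟨j, by simp only [Finset.mem_range, Order.lt_add_one_iff]; omega, rfl⟩)
  have hbW : ∀ j n, j ≤ n → ∃ c ∈ W (n + 1),
      ‖star (U (n + 1) : B) * b j * U (n + 1) - i c‖ < (1 / 2 : ℝ) ^ n := by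
    intro j n hj
    have hmem : star (U n : B) * b j * U n ∈ G2 n (F n) :=
      Finset.mem_image.2 ⟨j, by simp; omega, rfl⟩
    refine ⟨κ (W n) (G2 n (F n)) n (star (U n : B) * b j * U n), ?_, ?_⟩
    · exact Finset.mem_union_left _ (Finset.mem_union_right _
        (Finset.mem_image.2 ⟨_, hmem, rfl⟩))
    · have := hκ (W n) (G2 n (F n)) n _ hmem
      rw [hU]
      have e : star ((U n * v n : unitary B) : B) * b j * ((U n * v n : unitary B) : B)
          = star (v n : B) * (star (U n : B) * b j * U n) * v n := by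
        simp only [Submonoid.coe_mul, star_mul, mul_assoc]
      rw [e]
      exact this
  -- the approximating homomorphisms
  let φ : ℕ → A →⋆ₐ[ℂ] B := fun n =>
    ((Unitary.conjStarAlgAut ℂ B (U n) : B ≃⋆ₐ[ℂ] B) : B →⋆ₐ[ℂ] B).comp i
  have hφ : ∀ n x, φ n x = (U n : B) * i x * star (U n : B) := fun n x => rfl
  have hφn : ∀ n x, ‖φ n x‖ = ‖x‖ := by
    intro n x
    rw [hφ, CStarRing.norm_mul_mem_unitary _ (Unitary.star_mem (U n).2),
      CStarRing.norm_coe_unitary_mul]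
    exact NonUnitalStarAlgHom.norm_map i hi x
  have hstep : ∀ n, ∀ x ∈ W n, ‖φ (n + 1) x - φ n x‖ ≤ (1 / 2 : ℝ) ^ n := by
    intro n x hx
    have e : φ (n + 1) x - φ n x
        = (U n : B) * (((v n : B) * i x - i x * v n) * star (v n : B)) * star (U n : B) := by
      have e2 : (v n : B) * star (v n : B) = 1 := Unitary.mul_star_self_of_mem (v n).2
      rw [hφ n x, hφ (n + 1) x, hU]
      simp only [Submonoid.coe_mul, star_mul, mul_sub, sub_mul, mul_assoc, e2, mul_one]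
    rw [e, CStarRing.norm_mul_mem_unitary _ (Unitary.star_mem (U n).2),
      CStarRing.norm_coe_unitary_mul, CStarRing.norm_mul_mem_unitary _ (Unitary.star_mem (v n).2)]
    exact (hV (W n) (G2 n (F n)) n x hx).le
  have hclose : ∀ m, ∀ x ∈ W m, ∀ k, m ≤ k →
      ‖φ k x - φ m x‖ ≤ 2 * (1 / 2 : ℝ) ^ m - 2 * (1 / 2 : ℝ) ^ k := by
    intro m x hx k hk
    induction k, hk using Nat.le_induction with
    | base => simp
    | succ k hk ih =>
      have h1 := hstep k x (hWm m k hk hx)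
      have h2 : φ (k + 1) x - φ m x = (φ (k + 1) x - φ k x) + (φ k x - φ m x) := by abel
      rw [h2]
      refine (norm_add_le _ _).trans ?_
      rw [pow_succ]
      linarith only [ih, h1]
  have hclose' : ∀ m, ∀ x ∈ W m, ∀ k, m ≤ k → ‖φ k x - φ m x‖ ≤ 2 * (1 / 2 : ℝ) ^ m := by
    intro m x hx k hk
    have := hclose m x hx k hk
    have h2 : (0 : ℝ) ≤ (1 / 2 : ℝ) ^ k := by positivity
    linarith only [this, h2]
  have hpow : ∀ ε : ℝ, 0 < ε → ∀ N : ℕ, ∃ n ≥ N, (1 / 2 : ℝ) ^ n < ε := by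
    intro ε hε N
    obtain ⟨n, hn⟩ := exists_pow_lt_of_lt_one hε (by norm_num : (1 / 2 : ℝ) < 1)
    refine ⟨max n N, le_max_right _ _, ?_⟩
    exact lt_of_le_of_lt (pow_le_pow_of_le_one (by norm_num) (by norm_num) (le_max_left _ _)) hn
  have hcauchy : ∀ x, CauchySeq (fun n => φ n x) := by
    intro x
    rw [Metric.cauchySeq_iff']
    intro ε hε
    obtain ⟨j, hj⟩ := Metric.denseRange_iff.1 ha x (ε / 4) (by linarith)
    obtain ⟨m, hmj, hm⟩ := hpow (ε / 8) (by linarith only [hε]) j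
    refine ⟨m, fun k hk => ?_⟩
    rw [dist_eq_norm] at hj ⊢
    have e : φ k x - φ m x = φ k (x - a j) + (φ k (a j) - φ m (a j)) - φ m (x - a j) := by
      simp only [map_sub]; abel
    rw [e]
    have h1 := hclose' m (a j) (haW j m hmj) k hk
    have h2 := hφn k (x - a j)
    have h3 := hφn m (x - a j)
    have h4 := norm_sub_le (φ k (x - a j) + (φ k (a j) - φ m (a j))) (φ m (x - a j))
    have h5 := norm_add_le (φ k (x - a j)) (φ k (a j) - φ m (a j))
    linarith only [hε, hj, hm, h1, h2, h3, h4, h5]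
  choose Φ hΦ using fun x => cauchySeq_tendsto_of_complete (hcauchy x)
  let Ψ : A →⋆ₐ[ℂ] B :=
    { toFun := Φ
      map_one' := tendsto_nhds_unique (hΦ 1) (by simp only [map_one, tendsto_const_nhds_iff])
      map_mul' := fun x y => tendsto_nhds_unique (hΦ (x * y))
        (by simpa only [map_mul] using (hΦ x).mul (hΦ y))
      map_zero' := tendsto_nhds_unique (hΦ 0) (by simp)
      map_add' := fun x y => tendsto_nhds_unique (hΦ (x + y))
        (by simpa only [map_add] using (hΦ x).add (hΦ y))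
      commutes' := fun r => tendsto_nhds_unique (hΦ (algebraMap ℂ A r))
        (by simpa only [AlgHomClass.commutes] using tendsto_const_nhds)
      map_star' := fun x => tendsto_nhds_unique (hΦ (star x))
        (by simpa only [map_star] using (hΦ x).star) }
  have hΨ : ∀ x, Tendsto (fun n => φ n x) atTop (𝓝 (Ψ x)) := hΦ
  have hnorm : ∀ x, ‖Ψ x‖ = ‖x‖ := by
    intro x
    refine tendsto_nhds_unique (hΨ x).norm ?_
    simp only [hφn]
    exact tendsto_const_nhds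
  have hiso : Isometry Ψ := AddMonoidHomClass.isometry_of_norm Ψ hnorm
  have hclosed : IsClosed (Set.range Ψ) := hiso.isClosedEmbedding.isClosed_range
  have hlim : ∀ m, ∀ x ∈ W m, ‖Ψ x - φ m x‖ ≤ 2 * (1 / 2 : ℝ) ^ m := by
    intro m x hx
    have h1 : Tendsto (fun k => ‖φ k x - φ m x‖) atTop (𝓝 ‖Ψ x - φ m x‖) :=
      ((hΨ x).sub tendsto_const_nhds).norm
    refine le_of_tendsto h1 ?_
    filter_upwards [eventually_ge_atTop m] with k hk
    exact hclose' m x hx k hk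
  have hsurj : Function.Surjective Ψ := by
    have hdense : Set.range b ⊆ Set.range Ψ := by
      rintro _ ⟨j, rfl⟩
      rw [← hclosed.closure_eq, Metric.mem_closure_iff]
      intro ε hε
      obtain ⟨n, hnj, hn⟩ := hpow (ε / 4) (by linarith only [hε]) j
      obtain ⟨c, hc, hc'⟩ := hbW j n hnj
      refine ⟨Ψ c, ⟨c, rfl⟩, ?_⟩
      rw [dist_eq_norm]
      have h1 := hlim (n + 1) c hc
      have h2 : ‖b j - φ (n + 1) c‖ < (1 / 2 : ℝ) ^ n := by
        have e : b j - φ (n + 1) c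
            = (U (n + 1) : B) * (star (U (n + 1) : B) * b j * U (n + 1) - i c)
              * star (U (n + 1) : B) := by
          have e2 : (U (n + 1) : B) * star (U (n + 1) : B) = 1 :=
            Unitary.mul_star_self_of_mem (U (n + 1)).2
          have e3 : (U (n + 1) : B) * (star (U (n + 1) : B) * b j * U (n + 1))
              * star (U (n + 1) : B) = ((U (n + 1) : B) * star (U (n + 1) : B)) * b j
              * ((U (n + 1) : B) * star (U (n + 1) : B)) := by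
            simp only [mul_assoc]
          rw [mul_sub, sub_mul, e3, e2, one_mul, mul_one, hφ (n + 1) c]
        rw [e, CStarRing.norm_mul_mem_unitary _ (Unitary.star_mem (U (n + 1)).2),
          CStarRing.norm_coe_unitary_mul]
        exact hc'
      have e : b j - Ψ c = (b j - φ (n + 1) c) - (Ψ c - φ (n + 1) c) := by abel
      rw [e]
      have h3 := norm_sub_le (b j - φ (n + 1) c) (Ψ c - φ (n + 1) c)
      rw [pow_succ] at h1
      linarith only [hε, hn, h1, h2, h3]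
    have h1 : closure (Set.range b) ⊆ Set.range Ψ := closure_minimal hdense hclosed
    rw [hb.closure_range] at h1
    intro y
    exact h1 (Set.mem_univ y)
  -- the cocycle
  have hβn : ∀ g x, ‖β g x‖ ≤ ‖x‖ := fun g x => norm_act β g x
  let c : ℕ → G → B := fun n g => (U n : B) * star (β g (U n : B))
  have hβU : ∀ g n, β g (U n : B) ∈ unitary B := fun g n => by
    rw [Unitary.mem_iff, ← map_star, ← map_mul, ← map_mul, Unitary.star_mul_self_of_mem (U n).2,
      Unitary.mul_star_self_of_mem (U n).2, map_one]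
    exact ⟨rfl, rfl⟩
  have hβv : ∀ g n, β g (v n : B) ∈ unitary B := fun g n => by
    rw [Unitary.mem_iff, ← map_star, ← map_mul, ← map_mul, Unitary.star_mul_self_of_mem (v n).2,
      Unitary.mul_star_self_of_mem (v n).2, map_one]
    exact ⟨rfl, rfl⟩
  have hcu : ∀ n g, c n g ∈ unitary B := fun n g =>
    mul_mem (U n).2 (Unitary.star_mem (hβU g n))
  have hcstep : ∀ j n, j ≤ n → ‖c (n + 1) (eG j) - c n (eG j)‖ ≤ (1 / 2 : ℝ) ^ n := by
    intro j n hj
    have e : c (n + 1) (eG j) - c n (eG j)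
        = (U n : B) * (((v n : B) - β (eG j) (v n : B)) * star (β (eG j) (v n : B)))
          * star (β (eG j) (U n : B)) := by
      have e2 : β (eG j) (v n : B) * star (β (eG j) (v n : B)) = 1 :=
        Unitary.mul_star_self_of_mem (hβv _ _)
      have e3 : β (eG j) ((U n * v n : unitary B) : B)
          = β (eG j) (U n : B) * β (eG j) (v n : B) := by
        rw [Submonoid.coe_mul, map_mul]
      show (U (n + 1) : B) * star (β (eG j) (U (n + 1) : B)) - _ = _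
      rw [hU, e3, star_mul, sub_mul, e2]
      simp only [c, Submonoid.coe_mul, mul_sub, sub_mul, mul_assoc, mul_one]
    rw [e, CStarRing.norm_mul_mem_unitary _ (Unitary.star_mem (hβU _ _)),
      CStarRing.norm_coe_unitary_mul, CStarRing.norm_mul_mem_unitary _
        (Unitary.star_mem (hβv _ _)), norm_sub_rev]
    exact (hβV (W n) (G2 n (F n)) n j hj).le
  have hccauchy : ∀ g, CauchySeq (fun n => c n g) := by
    intro g
    obtain ⟨j, rfl⟩ := heG g
    have h1 : CauchySeq (fun n => c (n + j) (eG j)) := by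
      refine cauchySeq_of_le_geometric (1 / 2 : ℝ) 1 (by norm_num) fun n => ?_
      rw [dist_comm, dist_eq_norm, one_mul]
      have h2 := hcstep j (n + j) (by omega)
      have e : n + 1 + j = n + j + 1 := by omega
      rw [e]
      refine h2.trans ?_
      exact pow_le_pow_of_le_one (by norm_num) (by norm_num) (by omega)
    exact (cauchySeq_shift j).1 h1
  choose u hu using fun g => cauchySeq_tendsto_of_complete (hccauchy g)
  have hclu : IsClosed (unitary B : Set B) := by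
    have e : (unitary B : Set B) = {x | star x * x = 1} ∩ {x | x * star x = 1} := by
      ext x; exact Unitary.mem_iff
    rw [e]
    exact (isClosed_eq (by fun_prop) continuous_const).inter
      (isClosed_eq (by fun_prop) continuous_const)
  have hβc : ∀ g, Continuous (β g) := fun g =>
    AddMonoidHomClass.continuous_of_bound (β g) 1 (by simpa only [one_mul] using hβn g)
  refine ⟨StarAlgEquiv.ofBijective Ψ ⟨hiso.injective, hsurj⟩, u, fun n => (U n : B),
    fun n => (U n).2, fun g =>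
    hclu.mem_of_tendsto (hu g) (Eventually.of_forall fun n => hcu n g), fun g k => ?_,
    fun g a => ?_, fun a => hΨ a, hu⟩
  · refine tendsto_nhds_unique (hu (g * k)) ?_
    have h1 := (hu g).mul (((hβc g).tendsto _).comp (hu k))
    refine h1.congr fun n => ?_
    show (U n : B) * star (β g (U n : B)) * β g ((U n : B) * star (β k (U n : B)))
      = (U n : B) * star (β (g * k) (U n : B))
    have e1 : star (β g (U n : B)) * β g (U n : B) = 1 := Unitary.star_mul_self_of_mem (hβU _ _)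
    have e2 : β (g * k) (U n : B) = β g (β k (U n : B)) := by rw [map_mul]; rfl
    rw [map_mul, map_star, e2, mul_assoc, ← mul_assoc (star (β g (U n : B))), e1, one_mul]
  · show Ψ (α g a) = u g * β g (Ψ a) * star (u g)
    refine tendsto_nhds_unique (hΨ (α g a)) ?_
    have h1 := ((hu g).mul (((hβc g).tendsto _).comp (hΨ a))).mul (hu g).star
    refine h1.congr fun n => ?_
    show (U n : B) * star (β g (U n : B)) * β g (φ n a) * star ((U n : B) * star (β g (U n : B)))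
      = φ n (α g a)
    rw [hφ, hφ, hαβ, map_mul, map_mul, map_star, star_mul, star_star]
    have e1 : star (β g (U n : B)) * β g (U n : B) = 1 := Unitary.star_mul_self_of_mem (hβU _ _)
    calc (U n : B) * star (β g (U n : B)) * (β g (U n : B) * β g (i a) * star (β g (U n : B)))
          * (β g (U n : B) * star (U n : B))
        = (U n : B) * (star (β g (U n : B)) * β g (U n : B)) * β g (i a)
          * (star (β g (U n : B)) * β g (U n : B)) * star (U n : B) := by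
          simp only [mul_assoc]
      _ = _ := by rw [e1, mul_one, mul_one]


theorem conj_limit_strong {E Z B : Type u} [CStarAlgebra E] [CStarAlgebra Z] [CStarAlgebra B]
    [TopologicalSpace.SeparableSpace E] {G : Type w} [Group G] [Countable G]
    (γ : G →* (E ≃⋆ₐ[ℂ] E)) (β : G →* (B ≃⋆ₐ[ℂ] B)) (ι : Type) (μ : Filter ι) [NeBot μ]
    (h : IsEmpty (Fa γ μ →⋆ₐ[ℂ] ℂ)) (hZ : IsJiangSuAlgebra Z) (i : E →⋆ₐ[ℂ] B) (j : Z →⋆ₐ[ℂ] B)
    (hT : IsTensorCompletion i j) (hαβ : IsTensorTrivial i j γ β) :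
    ∃ (Φ : E ≃⋆ₐ[ℂ] B) (u : G → B) (V : ℕ → B), (∀ n, V n ∈ unitary B) ∧
      (∀ g, u g ∈ unitary B) ∧ (∀ g h, u (g * h) = u g * β g (u h)) ∧
      (∀ g a, Φ (γ g a) = u g * β g (Φ a) * star (u g)) ∧
      (∀ a, Tendsto (fun n => V n * i a * star (V n)) atTop (𝓝 (Φ a))) ∧
      ∀ g, Tendsto (fun n => V n * star (β g (V n))) atTop (𝓝 (u g)) := by
  have hZ' := hZ.isJiangSu
  have hT' := hT.isCStarTensor
  have _ : TopologicalSpace.SeparableSpace Z := separable_dimDrop_closure hZ'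
  have _ : TopologicalSpace.SeparableSpace B := separable_tensor i j hT'
  have _ : Nontrivial Z := nontrivial_of_isJiangSu hZ'
  have h1 : ∃ (ι : Type) (μ : Filter ι) (_ : NeBot μ), Nonempty (Z →⋆ₐ[ℂ] Fa γ μ) :=
    exists_hom_of_limit γ hZ' fun p q hp hq hpq => exists_dimDrop_hom γ ι μ h p q hp hq hpq
  exact elliott_strong γ β i (injective_of_isCStarTensor i j hT') (fun g a => (hαβ.left g a).symm)
    (unitaries γ β hZ' i j hT' (fun g a => (hαβ.left g a).symm) hαβ.right h1)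


section

open scoped TensorProduct

section ran

variable {E Z N : Type u} [CStarAlgebra E] [CStarAlgebra Z] [CStarAlgebra N]
  (i : E →⋆ₐ[ℂ] N) (j : Z →⋆ₐ[ℂ] N) (hc : ∀ x z, Commute (i x) (j z))

theorem conj_range_strong [TopologicalSpace.SeparableSpace E] {G : Type w} [Group G] [Countable G]
    (γ : G →* (E ≃⋆ₐ[ℂ] E)) (δ : G →* (N ≃⋆ₐ[ℂ] N))
    (hinj : Function.Injective (Algebra.TensorProduct.lift (i : E →ₐ[ℂ] N) (j : Z →ₐ[ℂ] N) hc))
    (hi : ∀ g x, δ g (i x) = i (γ g x)) (hj : ∀ g z, δ g (j z) = j z)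
    (hZ : IsJiangSuAlgebra Z) (h : IsEmpty (Fa γ (atTop : Filter ℕ) →⋆ₐ[ℂ] ℂ)) :
    ∃ (Φ : E →⋆ₐ[ℂ] N) (u : G → N) (V : ℕ → N), (∀ n, V n ∈ unitary N) ∧
      (∀ g, u g ∈ unitary N) ∧ (∀ g h, u (g * h) = u g * δ g (u h)) ∧
      (∀ g a, Φ (γ g a) = u g * δ g (Φ a) * star (u g)) ∧
      (∀ a, Tendsto (fun n => V n * i a * star (V n)) atTop (𝓝 (Φ a))) ∧
      (∀ a, ‖Φ a‖ = ‖a‖) ∧ IsClosed (Set.range Φ) ∧ (∀ a z, i a * j z ∈ Set.range Φ) ∧
      ∀ g, Tendsto (fun n => V n * star (δ g (V n))) atTop (𝓝 (u g)) := by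
  let B₁ : StarSubalgebra ℂ N := (tenRange i j hc).topologicalClosure
  have hB : IsClosed (B₁ : Set N) := StarSubalgebra.isClosed_topologicalClosure _
  have hle : tenRange i j hc ≤ B₁ := StarSubalgebra.le_topologicalClosure _
  have hmi : ∀ x, i x ∈ B₁ := fun x => hle (by simpa only [map_one, mul_one] using mul_mem_tenRange i j hc x 1)
  have hmj : ∀ z, j z ∈ B₁ := fun z => hle (by simpa only [map_one, one_mul] using mul_mem_tenRange i j hc 1 z)
  let i' : E →⋆ₐ[ℂ] B₁ := i.codRestrict B₁ hmi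
  let j' : Z →⋆ₐ[ℂ] B₁ := j.codRestrict B₁ hmj
  have hi' : ∀ x, ((i' x : B₁) : N) = i x := fun x => rfl
  have hj' : ∀ x, ((j' x : B₁) : N) = j x := fun x => rfl
  have hc' : ∀ a z, Commute (i' a) (j' z) := fun a z => Subtype.ext (hc a z)
  have hlift : ∀ t, ((Algebra.TensorProduct.lift (i' : E →ₐ[ℂ] B₁) (j' : Z →ₐ[ℂ] B₁) hc' t : B₁) : N)
      = Algebra.TensorProduct.lift (i : E →ₐ[ℂ] N) (j : Z →ₐ[ℂ] N) hc t := by
    intro t
    induction t using TensorProduct.induction_on with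
    | zero => rw [map_zero, map_zero]; rfl
    | add s t hs ht => rw [map_add, map_add, ← hs, ← ht]; rfl
    | tmul x z =>
      rw [Algebra.TensorProduct.lift_tmul, Algebra.TensorProduct.lift_tmul]
      rfl
  have hT : IsTensorCompletion i' j' := by
    refine ⟨hc', ?_, ?_⟩
    · intro s t hst
      refine hinj ?_
      rw [← hlift, ← hlift, hst]
    · intro y
      rw [Metric.mem_closure_iff]
      intro ε hε
      have hy : (y : N) ∈ closure ((tenRange i j hc : StarSubalgebra ℂ N) : Set N) := by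
        have := y.2
        rwa [← StarSubalgebra.topologicalClosure_coe]
      obtain ⟨w, hw, hd⟩ := Metric.mem_closure_iff.1 hy ε hε
      obtain ⟨t, ht⟩ := hw
      refine ⟨Algebra.TensorProduct.lift (i' : E →ₐ[ℂ] B₁) (j' : Z →ₐ[ℂ] B₁) hc' t, ⟨t, rfl⟩, ?_⟩
      rw [Subtype.dist_eq, hlift]
      have ht' : Algebra.TensorProduct.lift (i : E →ₐ[ℂ] N) (j : Z →ₐ[ℂ] N) hc t = w := ht
      rw [ht']
      exact hd
  have hδ : ∀ g, ∀ x ∈ B₁, δ g x ∈ B₁ := by
    intro g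
    let φ : N →⋆ₐ[ℂ] N := (δ g : N ≃⋆ₐ[ℂ] N)
    have hφ : Continuous φ :=
      AddMonoidHomClass.continuous_of_bound φ 1
        (by simpa only [one_mul] using! NonUnitalStarAlgHom.norm_apply_le φ)
    have hle' : B₁ ≤ B₁.comap φ := by
      refine StarSubalgebra.topologicalClosure_minimal ?_ ?_
      · rintro _ ⟨t, rfl⟩
        show δ g (Algebra.TensorProduct.lift (i : E →ₐ[ℂ] N) (j : Z →ₐ[ℂ] N) hc t) ∈ B₁
        refine hle ?_
        induction t using TensorProduct.induction_on with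
        | zero => rw [map_zero, map_zero]; exact zero_mem _
        | add s t hs ht => rw [map_add, map_add]; exact add_mem hs ht
        | tmul x z =>
          rw [Algebra.TensorProduct.lift_tmul]
          show δ g (i x * j z) ∈ _
          rw [map_mul, hi, hj]
          exact mul_mem_tenRange i j hc _ _
      · exact hB.preimage hφ
    intro x hx
    exact hle' hx
  let β : G →* (B₁ ≃⋆ₐ[ℂ] B₁) := resAct δ B₁ hδ
  have hαβ : IsTensorTrivial i' j' γ β :=
    ⟨fun g a => Subtype.ext (hi g a), fun g z => Subtype.ext (hj g z)⟩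
  obtain ⟨Φ, u, V, h1, h2, h3, h4, h5, h6⟩ :=
    conj_limit_strong γ β ℕ atTop h hZ i' j' hT hαβ
  have hval : ∀ x : B₁, B₁.subtype x = (x : N) := fun x => rfl
  refine ⟨B₁.subtype.comp (Φ : E →⋆ₐ[ℂ] B₁), fun g => (u g : N), fun n => (V n : N),
    ?_, ?_, ?_, ?_, ?_, ?_, ?_, ?_, ?_⟩
  · intro n
    have := h1 n
    rw [Unitary.mem_iff] at this ⊢
    exact ⟨congrArg Subtype.val this.1, congrArg Subtype.val this.2⟩
  · intro g
    have := h2 g
    rw [Unitary.mem_iff] at this ⊢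
    exact ⟨congrArg Subtype.val this.1, congrArg Subtype.val this.2⟩
  · intro g k
    exact congrArg Subtype.val (h3 g k)
  · intro g a
    exact congrArg Subtype.val (h4 g a)
  · intro a
    exact (continuous_subtype_val.tendsto _).comp (h5 a)
  · intro a
    show ‖Φ a‖ = ‖a‖
    exact NonUnitalStarAlgHom.norm_map Φ (Φ.injective) a
  · have : Set.range (B₁.subtype.comp (Φ : E →⋆ₐ[ℂ] B₁)) = (B₁ : Set N) := by
      ext y
      constructor
      · rintro ⟨x, rfl⟩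
        exact (Φ x).2
      · intro hy
        refine ⟨Φ.symm ⟨y, hy⟩, ?_⟩
        show ((Φ (Φ.symm ⟨y, hy⟩) : B₁) : N) = y
        rw [StarAlgEquiv.apply_symm_apply]
    rw [this]
    exact hB
  · intro a z
    refine ⟨Φ.symm (i' a * j' z), ?_⟩
    show ((Φ (Φ.symm (i' a * j' z)) : B₁) : N) = i a * j z
    rw [StarAlgEquiv.apply_symm_apply]
    rfl
  · intro g
    exact (continuous_subtype_val.tendsto _).comp (h6 g)

end ran

end

open scoped MultiplierAlgebra TensorProduct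

theorem strong_core {A : Type u} [NonUnitalCStarAlgebra A]
    [TopologicalSpace.SeparableSpace A] {G : Type w} [Group G] [Countable G]
    (α : G →* (A ≃⋆ₐ[ℂ] A)) (hN : NoCharLocalN α) (D : Set 𝓜(ℂ, A)) (hDc : D.Countable)
    {Z B : Type u} [CStarAlgebra Z] [NonUnitalCStarAlgebra B] (T : A →ₗ[ℂ] Z →ₗ[ℂ] B)
    (β : G →* (B ≃⋆ₐ[ℂ] B)) (hZ : IsJiangSuAlgebra Z) (hT : IsTensorCompletionN T)
    (hβ : ∀ g a z, β g (T a z) = T (α g a) z) :
    ∃ (Φ : A ≃⋆ₐ[ℂ] B) (u : G → 𝓜(ℂ, B)) (V : ℕ → 𝓜(ℂ, B)) (θ : 𝓜(ℂ, A) →⋆ₐ[ℂ] 𝓜(ℂ, B)),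
      (∀ x a z, (θ x).fst (T a z) = T (x.fst a) z) ∧
      (∀ a : A, θ (a : 𝓜(ℂ, A)) = ((T a 1 : B) : 𝓜(ℂ, B))) ∧
      (∀ g x, multAut (β g) (θ x) = θ (multAut (α g) x)) ∧
      (∀ g, u g ∈ unitary 𝓜(ℂ, B)) ∧
      (∀ g h, u (g * h) = u g * multAut (β g) (u h)) ∧
      (∀ g a, ((Φ (α g a) : B) : 𝓜(ℂ, B)) = u g * ((β g (Φ a) : B) : 𝓜(ℂ, B)) * star (u g)) ∧
      (∀ n, V n ∈ unitary 𝓜(ℂ, B)) ∧
      (∀ a : A, Tendsto (fun n => V n * ((T a 1 : B) : 𝓜(ℂ, B)) * star (V n)) atTop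
        (𝓝 ((Φ a : B) : 𝓜(ℂ, B)))) ∧
      (∀ g, Tendsto (fun n => V n * star (multAut (β g) (V n))) atTop (𝓝 (u g))) ∧
      ∀ x ∈ D, ∃ y : 𝓜(ℂ, B), Tendsto (fun n => V n * θ x * star (V n)) atTop (𝓝 y) ∧
        ∀ a, y.fst (Φ a) = Φ (x.fst a) := by
  obtain ⟨m, R, hM⟩ := noCharOn_mult α hN
  obtain ⟨E, hEc, hEs, hD00, hE, hEN⟩ := exists_separable_sub (multAct α) m R hM
    ((Set.range fun n => ((TopologicalSpace.denseSeq A n : A) : 𝓜(ℂ, A))) ∪ D)
    ((Set.countable_range _).union hDc)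
  have hD0 := Set.subset_union_left.trans hD00
  have hDE : ∀ x ∈ D, x ∈ E := fun x hx => hD00 (Or.inr hx)
  have : IsClosed (E : Set 𝓜(ℂ, A)) := hEc
  have hEsep : TopologicalSpace.SeparableSpace E := hEs.separableSpace
  have hAE : ∀ a : A, (a : 𝓜(ℂ, A)) ∈ E := by
    have h1 : IsClosed {a : A | (a : 𝓜(ℂ, A)) ∈ E} := hEc.preimage isometry_coeM.continuous
    have h2 : Set.range (TopologicalSpace.denseSeq A) ⊆ {a : A | (a : 𝓜(ℂ, A)) ∈ E} := by
      rintro _ ⟨n, rfl⟩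
      exact hD0 ⟨n, rfl⟩
    intro a
    have h3 := closure_minimal h2 h1
    exact h3 ((TopologicalSpace.denseRange_denseSeq A) a)
  have hemp : IsEmpty (Fa (resAct (multAct α) E hE) (atTop : Filter ℕ) →⋆ₐ[ℂ] ℂ) :=
    isEmpty_Fa _ m R (noCharOn_res (multAct α) E hE m R hEN)
  obtain ⟨θ, hθ⟩ := exists_leftHom T hT
  obtain ⟨j, hj⟩ := exists_rightHom T hT
  have hc := ext_comm T hT θ hθ j hj
  have hinj := ext_injective T hT θ hθ j hj hc
  have hcoe := ext_coe T hT θ hθ j hj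
  have hact := fun g x z => ext_act T hT θ hθ j hj (α g) (β g) (hβ g) x z
  have hc' : ∀ (x : E) z, Commute ((θ.comp E.subtype) x) (j z) := fun x z => hc _ _
  have hinj' : Function.Injective
      (Algebra.TensorProduct.lift ((θ.comp E.subtype : E →⋆ₐ[ℂ] 𝓜(ℂ, B)) : E →ₐ[ℂ] 𝓜(ℂ, B))
        (j : Z →ₐ[ℂ] 𝓜(ℂ, B)) hc') := by
    have e : ∀ t, (Algebra.TensorProduct.lift
        ((θ.comp E.subtype : E →⋆ₐ[ℂ] 𝓜(ℂ, B)) : E →ₐ[ℂ] 𝓜(ℂ, B)) (j : Z →ₐ[ℂ] 𝓜(ℂ, B)) hc') t =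
        (Algebra.TensorProduct.lift (θ : 𝓜(ℂ, A) →ₐ[ℂ] 𝓜(ℂ, B)) (j : Z →ₐ[ℂ] 𝓜(ℂ, B)) hc)
          (LinearMap.rTensor Z (E.subtype : E →ₗ[ℂ] 𝓜(ℂ, A)) t) := by
      intro t
      induction t using TensorProduct.induction_on with
      | zero => rw [map_zero, map_zero, map_zero]
      | add s t hs ht => rw [map_add, map_add, map_add, hs, ht]
      | tmul x z =>
        rw [LinearMap.rTensor_tmul, Algebra.TensorProduct.lift_tmul,
          Algebra.TensorProduct.lift_tmul]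
        rfl
    intro s t hst
    rw [e, e] at hst
    exact Module.Flat.rTensor_preserves_injective_linearMap (M := Z)
      (E.subtype : E →ₗ[ℂ] 𝓜(ℂ, A)) Subtype.val_injective (hinj hst)
  obtain ⟨Φ, u, V, hV, hu, hcoc, hΦ, hlim, hnorm, hcl, hran, huV⟩ :=
    conj_range_strong (θ.comp E.subtype) j hc' (resAct (multAct α) E hE) (multAct β) hinj'
      (fun g x => (hact g (x : 𝓜(ℂ, A)) 1).1) (fun g z => (hact g 1 z).2) hZ hemp
  have hθ1 : ∀ a : A, θ (a : 𝓜(ℂ, A)) = ((T a 1 : B) : 𝓜(ℂ, B)) := left_coe T hT θ hθ j hj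
  -- `Φ` maps `A` into `B`
  have hΦB : ∀ a : A, ∃ b : B, (b : 𝓜(ℂ, B)) = Φ ⟨(a : 𝓜(ℂ, A)), hAE a⟩ := by
    intro a
    have := isClosed_range_coeM.mem_of_tendsto (hlim ⟨(a : 𝓜(ℂ, A)), hAE a⟩)
      (Eventually.of_forall fun n => by
        show V n * θ (a : 𝓜(ℂ, A)) * star (V n) ∈ _
        rw [hθ1]
        exact conj_mem_coeM _ _ _)
    exact this
  -- `θ` is isometric on `E`
  have hθE : ∀ x : E, ‖θ (x : 𝓜(ℂ, A))‖ = ‖x‖ := by
    intro x
    have h1 := (hlim x).norm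
    have h2 : ∀ n, ‖V n * (θ.comp E.subtype) x * star (V n)‖ = ‖θ (x : 𝓜(ℂ, A))‖ := by
      intro n
      rw [CStarRing.norm_mul_mem_unitary _ (Unitary.star_mem (hV n)),
        CStarRing.norm_mem_unitary_mul _ (hV n)]
      rfl
    simp only [h2, hnorm] at h1
    exact tendsto_nhds_unique tendsto_const_nhds h1
  -- multipliers mapped into `B` are in `A`
  have hback : ∀ x : E, (∃ b : B, (b : 𝓜(ℂ, B)) = θ (x : 𝓜(ℂ, A))) →
      ∃ a : A, (a : 𝓜(ℂ, A)) = x := by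
    rintro x ⟨b, hb⟩
    have h1 : (x : 𝓜(ℂ, A)) ∈ closure (Set.range (fun a : A => (a : 𝓜(ℂ, A)))) := by
      rw [Metric.mem_closure_iff]
      intro ε hε
      obtain ⟨h, hh⟩ := exists_unit_left T hT θ hθ j hj b ε hε
      refine ⟨_, ⟨(x : 𝓜(ℂ, A)).snd h, rfl⟩, ?_⟩
      show dist (x : 𝓜(ℂ, A)) (((x : 𝓜(ℂ, A)).snd h : A) : 𝓜(ℂ, A)) < ε
      rw [← coe_mul_mult, dist_comm, dist_eq_norm]
      have hmem : (h : 𝓜(ℂ, A)) * (x : 𝓜(ℂ, A)) - (x : 𝓜(ℂ, A)) ∈ E :=
        sub_mem (mul_mem (hAE h) x.2) x.2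
      have h2 := hθE ⟨_, hmem⟩
      have h3 : ‖(⟨_, hmem⟩ : E)‖ = ‖(h : 𝓜(ℂ, A)) * (x : 𝓜(ℂ, A)) - (x : 𝓜(ℂ, A))‖ := rfl
      rw [← h3, ← h2, map_sub, map_mul, ← hb, mult_mul_coe]
      have h4 : ((((θ (h : 𝓜(ℂ, A))).fst b : B) : 𝓜(ℂ, B)) - (b : 𝓜(ℂ, B))) =
          (((θ (h : 𝓜(ℂ, A))).fst b - b : B) : 𝓜(ℂ, B)) := (coeM_sub _ _).symm
      rw [h4, norm_coe_mult]
      exact hh
    rwa [isClosed_range_coeM.closure_eq] at h1
  have hsurj : ∀ b : B, ∃ a : A, (b : 𝓜(ℂ, B)) = Φ ⟨(a : 𝓜(ℂ, A)), hAE a⟩ := by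
    intro b
    have h1 : (b : 𝓜(ℂ, B)) ∈ Set.range Φ := by
      have h2 : IsClosed {b : B | (b : 𝓜(ℂ, B)) ∈ Set.range Φ} :=
        hcl.preimage isometry_coeM.continuous
      have h3 : Set.range (TensorProduct.lift T) ⊆ {b : B | (b : 𝓜(ℂ, B)) ∈ Set.range Φ} := by
        rintro _ ⟨t, rfl⟩
        show ((TensorProduct.lift T t : B) : 𝓜(ℂ, B)) ∈ Set.range Φ
        induction t using TensorProduct.induction_on with
        | zero => exact ⟨0, by rw [map_zero, map_zero]; exact (map_zero (DoubleCentralizer.coeHom (𝕜 := ℂ) (A := B))).symm⟩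
        | add s t hs ht =>
          obtain ⟨x, hx⟩ := hs
          obtain ⟨y, hy⟩ := ht
          refine ⟨x + y, ?_⟩
          rw [map_add, map_add, hx, hy]
          exact (map_add (DoubleCentralizer.coeHom (𝕜 := ℂ) (A := B)) _ _).symm
        | tmul a z =>
          rw [TensorProduct.lift.tmul, ← hcoe]
          exact hran ⟨(a : 𝓜(ℂ, A)), hAE a⟩ z
      exact closure_minimal h3 h2 (hT.dense b)
    obtain ⟨x, hx⟩ := h1
    have h2 : (θ (x : 𝓜(ℂ, A))) ∈ closure (Set.range (fun a : B => (a : 𝓜(ℂ, B)))) := by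
      rw [Metric.mem_closure_iff]
      intro ε hε
      obtain ⟨n, hn⟩ := ((Metric.tendsto_atTop.1 (hlim x)) ε hε)
      have hn := hn n le_rfl
      rw [hx, dist_eq_norm] at hn
      refine ⟨star (V n) * (b : 𝓜(ℂ, B)) * V n, conj_mem_coeM _ _ _, ?_⟩
      rw [dist_eq_norm]
      have e : θ (x : 𝓜(ℂ, A)) - star (V n) * (b : 𝓜(ℂ, B)) * V n =
          star (V n) * (V n * (θ.comp E.subtype) x * star (V n) - (b : 𝓜(ℂ, B))) * V n := by
        have h4 : star (V n) * V n = 1 := Unitary.star_mul_self_of_mem (hV n)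
        have h5 : star (V n) * (V n * (θ.comp E.subtype) x * star (V n)) * V n =
            (star (V n) * V n) * θ (x : 𝓜(ℂ, A)) * (star (V n) * V n) := by
          simp only [mul_assoc]
          rfl
        rw [mul_sub, sub_mul, h5, h4, one_mul, mul_one]
      rw [e, CStarRing.norm_mul_mem_unitary _ (hV n),
        CStarRing.norm_mem_unitary_mul _ (Unitary.star_mem (hV n))]
      exact hn
    rw [isClosed_range_coeM.closure_eq] at h2
    obtain ⟨a, ha⟩ := hback x h2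
    refine ⟨a, ?_⟩
    rw [← hx]
    exact congrArg Φ (Subtype.ext ha.symm)
  choose Ψ hΨ using hΦB
  have hmk : ∀ a a' : A, (⟨((a * a' : A) : 𝓜(ℂ, A)), hAE _⟩ : E) =
      ⟨(a : 𝓜(ℂ, A)), hAE a⟩ * ⟨(a' : 𝓜(ℂ, A)), hAE a'⟩ := fun a a' => Subtype.ext (coeM_mul a a')
  have hadd : ∀ a a' : A, (⟨((a + a' : A) : 𝓜(ℂ, A)), hAE _⟩ : E) =
      ⟨(a : 𝓜(ℂ, A)), hAE a⟩ + ⟨(a' : 𝓜(ℂ, A)), hAE a'⟩ := fun a a' => Subtype.ext
        (map_add (DoubleCentralizer.coeHom (𝕜 := ℂ) (A := A)) a a')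
  have hsmul : ∀ (c : ℂ) (a : A), (⟨((c • a : A) : 𝓜(ℂ, A)), hAE _⟩ : E) =
      c • ⟨(a : 𝓜(ℂ, A)), hAE a⟩ := fun c a => Subtype.ext
        (map_smul (DoubleCentralizer.coeHom (𝕜 := ℂ) (A := A)) c a)
  have hstar : ∀ (a : A), (⟨((star a : A) : 𝓜(ℂ, A)), hAE _⟩ : E) =
      star ⟨(a : 𝓜(ℂ, A)), hAE a⟩ := fun a => Subtype.ext
        (map_star (DoubleCentralizer.coeHom (𝕜 := ℂ) (A := A)) a)
  have hΨinj : Function.Injective Ψ := by
    intro a a' h
    have h1 : Φ ⟨(a : 𝓜(ℂ, A)), hAE a⟩ = Φ ⟨(a' : 𝓜(ℂ, A)), hAE a'⟩ := by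
      rw [← hΨ, ← hΨ, h]
    have h2 : Isometry Φ := AddMonoidHomClass.isometry_of_norm Φ hnorm
    have h3 := congrArg Subtype.val (h2.injective h1)
    exact coeM_injective h3
  have hΨsurj : Function.Surjective Ψ := by
    intro b
    obtain ⟨a, ha⟩ := hsurj b
    refine ⟨a, coeM_injective ?_⟩
    show ((Ψ a : B) : 𝓜(ℂ, B)) = (b : 𝓜(ℂ, B))
    rw [hΨ, ha]
  let e : A ≃ B := Equiv.ofBijective Ψ ⟨hΨinj, hΨsurj⟩
  have hmulΨ : ∀ a a', Ψ (a * a') = Ψ a * Ψ a' := by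
    intro a a'
    refine coeM_injective ?_
    show ((Ψ (a * a') : B) : 𝓜(ℂ, B)) = ((Ψ a * Ψ a' : B) : 𝓜(ℂ, B))
    rw [hΨ, hmk, map_mul, ← hΨ, ← hΨ, coeM_mul]
  have haddΨ : ∀ a a', Ψ (a + a') = Ψ a + Ψ a' := by
    intro a a'
    refine coeM_injective ?_
    show ((Ψ (a + a') : B) : 𝓜(ℂ, B)) = ((Ψ a + Ψ a' : B) : 𝓜(ℂ, B))
    refine Eq.trans ?_ (map_add (DoubleCentralizer.coeHom (𝕜 := ℂ) (A := B)) (Ψ a) (Ψ a')).symm
    show _ = ((Ψ a : B) : 𝓜(ℂ, B)) + ((Ψ a' : B) : 𝓜(ℂ, B))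
    rw [hΨ, hΨ, hΨ, hadd, map_add]
  have hsmulΨ : ∀ (c : ℂ) a, Ψ (c • a) = c • Ψ a := by
    intro c a
    refine coeM_injective ?_
    show ((Ψ (c • a) : B) : 𝓜(ℂ, B)) = ((c • Ψ a : B) : 𝓜(ℂ, B))
    refine Eq.trans ?_ (map_smul (DoubleCentralizer.coeHom (𝕜 := ℂ) (A := B)) c (Ψ a)).symm
    show _ = c • ((Ψ a : B) : 𝓜(ℂ, B))
    rw [hΨ, hΨ, hsmul, map_smul]
  have hstarΨ : ∀ a, Ψ (star a) = star (Ψ a) := by
    intro a
    refine coeM_injective ?_
    show ((Ψ (star a) : B) : 𝓜(ℂ, B)) = ((star (Ψ a) : B) : 𝓜(ℂ, B))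
    refine Eq.trans ?_ (map_star (DoubleCentralizer.coeHom (𝕜 := ℂ) (A := B)) (Ψ a)).symm
    show _ = star ((Ψ a : B) : 𝓜(ℂ, B))
    rw [hΨ, hΨ, hstar, map_star]
  refine ⟨{ e with
    map_mul' := hmulΨ
    map_add' := haddΨ
    map_smul' := hsmulΨ
    map_star' := hstarΨ }, u, V, θ, hθ, hθ1, fun g x => (hact g x 1).1, hu, hcoc, ?_, hV, ?_,
    huV, ?_⟩
  · intro g a
    show ((Ψ (α g a) : B) : 𝓜(ℂ, B)) = u g * ((β g (Ψ a) : B) : 𝓜(ℂ, B)) * star (u g)
    have h5 : ((β g (Ψ a) : B) : 𝓜(ℂ, B)) = multAut (β g) (Φ ⟨(a : 𝓜(ℂ, A)), hAE a⟩) := by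
      rw [← multAut_coe, hΨ]
    rw [hΨ, h5]
    refine Eq.trans (congrArg Φ (Subtype.ext ?_)) (hΦ g ⟨(a : 𝓜(ℂ, A)), hAE a⟩)
    show ((α g a : A) : 𝓜(ℂ, A)) = multAut (α g) (a : 𝓜(ℂ, A))
    rw [multAut_coe]
  · intro a
    show Tendsto _ atTop (𝓝 ((Ψ a : B) : 𝓜(ℂ, B)))
    rw [hΨ]
    refine (hlim ⟨(a : 𝓜(ℂ, A)), hAE a⟩).congr fun n => ?_
    show V n * θ (a : 𝓜(ℂ, A)) * star (V n) = _
    rw [hθ1]
  · intro x hx
    refine ⟨Φ ⟨x, hDE x hx⟩, hlim ⟨x, hDE x hx⟩, fun a => ?_⟩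
    refine coeM_injective ?_
    show (((Φ ⟨x, hDE x hx⟩).fst (Ψ a) : B) : 𝓜(ℂ, B)) = ((Ψ (x.fst a) : B) : 𝓜(ℂ, B))
    rw [← mult_mul_coe, hΨ, hΨ, ← map_mul]
    refine congrArg Φ (Subtype.ext ?_)
    show x * (a : 𝓜(ℂ, A)) = _
    rw [mult_mul_coe]

/-- The strong form of cocycle conjugacy. -/
theorem strong_of_local {A : Type u} [NonUnitalCStarAlgebra A]
    [TopologicalSpace.SeparableSpace A] {G : Type w} [Group G] [Countable G]
    (α : G →* (A ≃⋆ₐ[ℂ] A)) (hN : NoCharLocalN α)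
    {Z B : Type u} [CStarAlgebra Z] [NonUnitalCStarAlgebra B] (T : A →ₗ[ℂ] Z →ₗ[ℂ] B)
    (β : G →* (B ≃⋆ₐ[ℂ] B)) (hZ : IsJiangSuAlgebra Z) (hT : IsTensorCompletionN T)
    (hβ : ∀ g a z, β g (T a z) = T (α g a) z) :
    IsStrongCocycleConj (fun a => T a 1) α β := by
  obtain ⟨Φ, u, V, θ, -, -, -, hu, hcoc, hΦ, hV, hlim, huV, -⟩ :=
    strong_core α hN ∅ Set.countable_empty T β hZ hT hβ
  refine ⟨Φ, u, V, hu, fun g h b => ?_, hΦ, hV, hlim, fun g ε hε => ?_⟩
  · rw [hcoc g h, DoubleCentralizer.mul_fst]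
    show (u g).fst ((multAut (β g) (u h)).fst (β g b)) = _
    rw [multAut_fst, StarAlgEquiv.symm_apply_apply]
  · filter_upwards [(Metric.tendsto_nhds.1 (huV g)) ε hε] with n hn b
    rw [dist_eq_norm] at hn
    have e : (V n).fst (β g ((star (V n)).fst b)) - (u g).fst (β g b) =
        (V n * star (multAut (β g) (V n)) - u g).fst (β g b) := by
      rw [DoubleCentralizer.sub_fst, DoubleCentralizer.mul_fst, ← map_star]
      show _ = (V n).fst ((multAut (β g) (star (V n))).fst (β g b)) - _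
      rw [multAut_fst, StarAlgEquiv.symm_apply_apply]
      rfl
    rw [e]
    refine ((V n * star (multAut (β g) (V n)) - u g).fst.le_opNorm _).trans ?_
    rw [DoubleCentralizer.norm_fst]
    have h2 : ‖β g b‖ = ‖b‖ := NonUnitalStarAlgHom.norm_map (β g) (β g).injective b
    rw [h2]
    exact mul_le_mul_of_nonneg_right hn.le (norm_nonneg _)

end Vale.Agent.P095.H413
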